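import Vale.Agent.P235.K5.W.Defs
import Vale.Agent.P235.K5.W.H531.Start

set_option autoImplicit false

/-!
# P235, K5, row W-MK: spanning models and minors
-/

namespace Vale.Agent.P235.K5.W.H118

open SimpleGraph Vale.Agent.P235.H134 Vale.Agent.P235.H56

theorem isMinor_of_has {V W : Type} {H : SimpleGraph W} {G : SimpleGraph V} (h : Has H G) :
    IsMinor H G := by
  obtain ⟨f, hf, ht⟩ := h
  refine ⟨fun a => {v | f v = a}, hf, fun a b hab => ?_, fun a b hab => ?_⟩
  · rw [Set.disjoint_left]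
    intro v hv hv'
    exact hab ((show f v = a from hv).symm.trans hv')
  · obtain ⟨u, v, hu, hv, huv⟩ := ht a b hab
    exact ⟨u, hu, v, hv, huv⟩

/-- **[W-MK]**. -/
theorem mk : MkStmt := by
  intro V W _ _ H G hG
  refine ⟨fun h => ?_, isMinor_of_has⟩
  obtain ⟨μ, hc, hd, ht⟩ := h
  obtain ⟨f, hf⟩ := H531.saturate hG.preconnected μ hc hd
  refine ⟨f, fun a => (hf a).1, fun a b hab => ?_⟩
  obtain ⟨x, hx, y, hy, hxy⟩ := ht a b hab
  exact ⟨x, y, (hf a).2 hx, (hf b).2 hy, hxy⟩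

end Vale.Agent.P235.K5.W.H118
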