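import Vale.Agent.P235.K5.W.Defs

set_option autoImplicit false

/-!
# P235, K5, row W-QUO: a model in the quotient is a model in the graph
-/

namespace Vale.Agent.P235.K5.W.H118

open SimpleGraph Vale.Agent.P235.H134 Vale.Agent.P235.H56

/-- The union of the parts of a connected set of the quotient is connected. -/
theorem conn_comp {V ι : Type} {G : SimpleGraph V} {f : V → ι} (hf : Mdl G f) {S : Set ι}
    (hS : ((Quo G f).induce S).Connected) : (G.induce {v | f v ∈ S}).Connected := by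
  obtain ⟨⟨i0, hi0⟩⟩ := hS.nonempty
  obtain ⟨⟨v0, hv0⟩⟩ := (hf i0).nonempty
  have hv0' : f v0 = i0 := hv0
  have key : ∀ j : S, Relation.ReflTransGen ((Quo G f).induce S).Adj ⟨i0, hi0⟩ j →
      ∃ U : Set V, U ⊆ {v | f v ∈ S} ∧ (G.induce U).Connected ∧ v0 ∈ U ∧
        {v | f v = j.1} ⊆ U := by
    intro j hj
    induction hj with
    | refl =>
      refine ⟨{v | f v = i0}, fun v hv => ?_, hf i0, hv0', fun v hv => hv⟩
      have hv' : f v = i0 := hv
      show f v ∈ S
      rw [hv']
      exact hi0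
    | @tail j k _ hjk ih =>
      obtain ⟨U, hU1, hU2, hU3, hU4⟩ := ih
      obtain ⟨-, u, v, hu, hv, huv⟩ := (show (Quo G f).Adj j.1 k.1 from hjk)
      refine ⟨U ∪ {v | f v = k.1}, ?_, ?_, Or.inl hU3, Set.subset_union_right⟩
      · rintro x (hx | hx)
        · exact hU1 hx
        · have hx' : f x = k.1 := hx
          show f x ∈ S
          rw [hx']
          exact k.2
      · exact connected_induce_union hU2.preconnected (hf k.1).preconnected (hU4 hu) hv huv
  refine induce_connected_of_patches v0 (show f v0 ∈ S by rw [hv0']; exact hi0) ?_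
  intro v hv
  have hr := hS.preconnected ⟨i0, hi0⟩ ⟨f v, hv⟩
  obtain ⟨U, hU1, hU2, hU3, hU4⟩ := key ⟨f v, hv⟩ ((reachable_iff_reflTransGen _ _).1 hr)
  exact ⟨U, hU1, hU3, hU4 rfl, hU2.preconnected _ _⟩

/-- **[W-QUO]**. -/
theorem quo : QuoStmt := by
  intro V ι W H G f hf hH
  obtain ⟨g, hg, ht⟩ := hH
  refine ⟨fun v => g (f v), fun w => conn_comp hf (hg w), fun a b hab => ?_⟩
  obtain ⟨i, j, hi, hj, -, u, v, hu, hv, huv⟩ := ht a b hab
  exact ⟨u, v, (congrArg g hu).trans hi, (congrArg g hv).trans hj, huv⟩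

end Vale.Agent.P235.K5.W.H118
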